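import Vale.Agent.P260Z.Ob.Reg.Closed.Col

/-!
# P260, obstruction: the current of the second chart
-/

noncomputable section
set_option linter.unusedSectionVars false
variable [Vale.Agent.P215Z.K.Geom]
namespace Vale.Agent.P215Z.K
open MvPolynomial Classical

namespace JBc
variable (s : Setup) {O : Type} [CommRing O] [Algebra ℚ O]
  (x : ∀ l : Lg, Option (s.L.C l.1) → M2 O) (B : F1 O) (y : Kl × Fin (s.n + 1))

omit [Algebra ℚ O]

theorem sig_eq : (s.itB x B y).σ = col s.D.N y.1 (2 * (y.2 : ℕ)) := by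
  funext j
  change _ + _ = sc0 _ _ _ + _
  congr 1

theorem Y_eq : (s.itB x B y).Y = at0 (Ad (hh s.D.N y.1 B y.2) (cst (x (y.1, true) none))) := rfl

theorem valid : (s.itB x B y).Valid := by
  refine ⟨kap_ne y.1, ?_, ?_, fun j h h' => ?_⟩
  · rw [sig_eq]
    change Even (col _ _ _ (kap y.1))
    rw [col_kap, Int.even_iff, mul_assoc]; omega
  · rw [sig_eq]
    change Even (col _ _ _ 3)
    rw [col_three]; exact Even.zero
  · rw [sig_eq, col_ne _ h h', Int.odd_iff, mul_assoc]; omega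

variable {s x B y}

theorem star_iff {τ : Pt} : (s.itB x B y).Star τ ↔
    (∀ j, j ≠ kap y.1 → j ≠ 3 → τ j = 1 + 2 * s.D.N * org (y.1, true) j) ∧
      |τ (kap y.1) - 2 * s.D.N * org (y.1, true) (kap y.1) - 2 * (y.2 : ℕ)| ≤ 1 ∧ |τ 3| ≤ 1 := by
  rw [Item.Star, sig_eq]
  change (∀ j, j ≠ kap y.1 → j ≠ 3 → _) ∧ |τ (kap y.1) - col _ _ _ (kap y.1)| ≤ 1 ∧
    |τ 3 - col _ _ _ 3| ≤ 1 ↔ _
  rw [col_kap, col_three, sub_zero, sub_add_eq_sub_sub_swap]
  exact and_congr_left' (forall₃_congr fun j h h' => by rw [col_ne _ h h'])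

theorem star_col {i : Kl} {a : ℤ} : (s.itB x B y).Star (col s.D.N i a) ↔
    y.1 = i ∧ |a - 2 * (y.2 : ℕ)| ≤ 1 := by
  rw [star_iff]
  constructor
  · rintro ⟨h1, h2, -⟩
    have h3 : ∀ i : Kl, (2 : Fin 4) ≠ kap i := fun i => (Gx.kap_ne2 i).symm
    have h4 : y.1 = i := (col_inj s.D.hN (a' := 0)
      (by rw [h1 2 (h3 _) (by decide), col_ne _ (h3 _) (by decide)])).symm
    subst h4
    rw [col_kap, add_sub_cancel_right] at h2
    exact ⟨rfl, h2⟩
  · rintro ⟨rfl, h⟩
    exact ⟨fun j h h' => col_ne _ h h', by rwa [col_kap, add_sub_cancel_right], by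
      rw [col_three]; simp⟩

theorem y_le (y : Kl × Fin (s.n + 1)) : (y.2 : ℕ) ≤ 3 * s.D.N := Nat.lt_succ_iff.1 y.2.2

/-- the cubes around a column -/
theorem star_cube {p q : Pt} (h : (s.itB x B y).Star (Function.update p 3 0))
    (hq : q ∈ Uc s.D.N) (hpq : ∀ j, |p j - cell q j| ≤ 1) : q ∈ Qc s.D.N (y.1, true) ∧
      ∃ a : ℕ, a ≤ 6 * s.D.N ∧ Function.update p 3 0 = col s.D.N y.1 a := by
  obtain ⟨h1, h2, -⟩ := star_iff.1 h
  have h3 := y_le y
  have h4 := eq_col h1 (Function.update_self _ _ _)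
  rw [Function.update_of_ne (kap_ne _)] at h2 h4
  rw [abs_le] at h2
  obtain ⟨h5, h6, h7⟩ := cube_Q hq hpq
    (fun j hj hj' => (Function.update_of_ne hj' 0 p).symm.trans (h1 j hj hj'))
    (sub_add_cancel _ _).symm (by omega) (by omega)
  obtain ⟨a, ha⟩ := Int.eq_ofNat_of_zero_le h6
  exact ⟨h5, a, by omega, by rw [h4, ha]⟩

theorem sum_hat (i : Kl) {a : ℕ} (ha : a ≤ 6 * s.D.N) :
    ∑ y : Kl × Fin (s.n + 1), (if (s.itB x B y).Star (col s.D.N i a) then
      (hat (col s.D.N i a) (s.itB x B y).σ (kap i) : RR O) else 0) = 1 := by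
  have e : ∀ j : Fin (s.n + 1), (hat (col s.D.N i a) (s.itB x B (i, j)).σ (kap i) : RR O) =
      if (a : ℤ) = 2 * (j : ℕ) + 1 then 1 - X (kap i) else
        if (a : ℤ) = 2 * (j : ℕ) - 1 then X (kap i) else 1 := fun j => by
    rw [sig_eq, hat, col_kap, col_kap]
    dsimp only
    congr 1
    · exact propext ⟨fun h => by omega, fun h => by omega⟩
    · congr 1
      exact propext ⟨fun h => by omega, fun h => by omega⟩
  simp only [star_col]
  rcases Nat.even_or_odd' a with ⟨j, rfl | rfl⟩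
  · rw [Fintype.sum_eq_single (i, (⟨j, by change j < 3 * _ + 1; omega⟩ : Fin (s.n + 1)))]
    · rw [if_pos ⟨rfl, by simp⟩, e, if_neg (by push_cast; omega), if_neg (by push_cast; omega)]
    · rintro ⟨i', j'⟩ h
      refine if_neg fun ⟨h1, h2⟩ => h (Prod.ext h1 (Fin.ext ?_))
      rw [abs_le] at h2
      simp only at h2 ⊢
      omega
  · rw [Fintype.sum_eq_add (i, (⟨j, by change j < 3 * _ + 1; omega⟩ : Fin (s.n + 1)))
      (i, (⟨j + 1, by change j + 1 < 3 * _ + 1; omega⟩ : Fin (s.n + 1))) (by simp)]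
    · rw [if_pos ⟨rfl, by simp⟩, if_pos ⟨rfl, by rw [abs_le]; push_cast; omega⟩, e, e,
        if_pos (by simp), if_neg (by push_cast; omega), if_pos (by push_cast; omega),
        sub_add_cancel]
    · rintro ⟨i', j'⟩ ⟨h, h'⟩
      refine if_neg fun ⟨h1, h2⟩ => ?_
      rw [abs_le] at h2
      simp only at h2
      have h3 : (j' : ℕ) = j ∨ (j' : ℕ) = j + 1 := by omega
      exact h3.elim (fun h4 => h (Prod.ext h1 (Fin.ext h4))) fun h4 => h' (Prod.ext h1 (Fin.ext h4))

theorem col_add (N : ℕ) (i : Kl) (a : ℤ) : col N i a + ee (kap i) = col N i (a + 1) := by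
  rw [← (show face (col N i a) (kap i) true = col N i (a + 1) from face_col a true), Poin.face_eq]
  rfl

theorem col_sub (N : ℕ) (i : Kl) (a : ℤ) : col N i a - ee (kap i) = col N i (a - 1) := by
  rw [← (show face (col N i a) (kap i) false = col N i (a - 1) from face_col a false), Poin.face_eq]
  rfl

theorem inc_eq {θ : Pt} (h : θ 3 = 0) : (s.itB x B y).inc θ =
    if θ = col s.D.N y.1 (2 * (y.2 : ℕ) + 1) then -1 else
      if θ = col s.D.N y.1 (2 * (y.2 : ℕ) - 1) then 1 else 0 := by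
  rw [Item.inc, sig_eq]
  change (if θ = _ + ee (kap y.1) then -1 else if θ = _ - ee (kap y.1) then 1 else
    if θ = _ + ee 3 then 1 else if θ = _ - ee 3 then -1 else 0) = _
  rw [col_add, col_sub, if_neg (c := θ = _ + ee 3), if_neg (c := θ = _ - ee 3)]
  · intro h1
    have h2 := congrFun h1 3
    rw [h, Pi.sub_apply, col_three] at h2
    simp [ee] at h2
  · intro h1
    have h2 := congrFun h1 3
    rw [h, Pi.add_apply, col_three] at h2
    simp [ee] at h2

theorem star_of_inc {θ : Pt} (h : θ 3 = 0) (h1 : (s.itB x B y).inc θ ≠ 0) :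
    (s.itB x B y).Star θ ∧ Odd (θ (kap y.1)) := by
  rw [inc_eq h] at h1
  split_ifs at h1 with h2 h3
  · exact h2 ▸ ⟨star_col.2 ⟨rfl, by simp⟩, odd_col _⟩
  · refine h3 ▸ ⟨star_col.2 ⟨rfl, by simp⟩, ?_⟩
    rw [col_kap, Int.odd_iff, mul_assoc]; omega
  · exact absurd rfl h1

theorem col_eq_iff {i i' : Kl} {a a' : ℤ} :
    col s.D.N i a = col s.D.N i' a' ↔ i = i' ∧ a = a' := by
  refine ⟨fun h => ?_, fun h => by rw [h.1, h.2]⟩
  obtain rfl := col_inj s.D.hN (congrFun h 2)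
  have h1 := congrFun h (kap i)
  rw [col_kap, col_kap] at h1
  exact ⟨rfl, by omega⟩

theorem sum_inc (i : Kl) {j : ℕ} (hj : j < 3 * s.D.N) :
    ∑ y : Kl × Fin (s.n + 1), (s.itB x B y).inc (col s.D.N i (2 * j + 1)) = 0 := by
  simp only [inc_eq (col_three _), col_eq_iff]
  rw [Fintype.sum_eq_add (i, (⟨j, by change j < 3 * _ + 1; omega⟩ : Fin (s.n + 1)))
    (i, (⟨j + 1, by change j + 1 < 3 * _ + 1; omega⟩ : Fin (s.n + 1))) (by simp)]
  · rw [if_pos ⟨rfl, rfl⟩, if_neg (fun h => by have := h.2; push_cast at this; omega),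
      if_pos ⟨rfl, by push_cast; omega⟩, neg_add_cancel]
  · rintro ⟨i', j'⟩ ⟨h, h'⟩
    rw [if_neg fun ⟨h1, h2⟩ => h (Prod.ext h1.symm (Fin.ext (by simp only at h2 ⊢; omega))),
      if_neg fun ⟨h1, h2⟩ => h' (Prod.ext h1.symm (Fin.ext (by simp only at h2 ⊢; omega)))]

theorem JB_apply {p : Pt} {i j : Fin 4} (hi : i ≠ 3) (hj : j ≠ 3) : s.JB x B p i j =
    ∑ y, (s.itB x B y).J B (Function.update p 3 0) i j := by
  rw [Setup.JB, if_neg (not_or.2 ⟨hi, hj⟩), JJ, Finset.sum_apply, Finset.sum_apply,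
    Finset.sum_apply]

theorem JB_zero {p : Pt} (h : ∀ y, ¬ (s.itB x B y).Star (Function.update p 3 0)) (i j : Fin 4) :
    s.JB x B p i j = 0 := by
  by_cases h1 : i = 3 ∨ j = 3
  · exact if_pos h1
  · rw [JB_apply (not_or.1 h1).1 (not_or.1 h1).2]
    exact Finset.sum_eq_zero fun y _ => if_neg (h y)

variable [Algebra ℚ O] (m : Marked O Mk)
  (hx : ∀ l c, s.L.cown l c = true → InC (m.ii (s.L.cmark l c)) (x l c))
include hx

omit [Algebra ℚ O] in
theorem x_mem (i : Kl) : InC (m.ii (Sum.inr (i, true))) (x (i, true) none) :=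
  hx (i, true) none rfl

theorem Y_mem (B : F1 O) (y : Kl × Fin (s.n + 1)) :
    InC (m.ii (Sum.inr (y.1, true))) (s.itB x B y).Y :=
  InI.at0 (InC.Ad ((inI_cst _ _).2 (x_mem m hx y.1)) _)

theorem JB_star {p : Pt} (h : (s.itB x B y).Star (Function.update p 3 0)) (i j : Fin 4) :
    InI (m.ii (Sum.inr (y.1, true))) (s.JB x B p i j) := by
  by_cases h1 : i = 3 ∨ j = 3
  · rw [Setup.JB, if_pos h1]; exact InC.zero
  · rw [JB_apply (not_or.1 h1).1 (not_or.1 h1).2]
    refine InC.sum _ _ fun y' _ => ?_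
    by_cases h2 : (s.itB x B y').Star (Function.update p 3 0)
    · rw [eq_col (star_iff.1 h).1 (Function.update_self _ _ _)] at h2
      rw [← (star_col.1 h2).1]
      exact Item.J_inI B _ (Y_mem m hx B y') _ _ _
    · rw [Item.J, if_neg h2]; exact InC.zero

variable {b : Ideal O} (hs : In2 (KB s.D.N) b (curv B - s.JB x B))
include hs

theorem flat_star {p : Pt} (hp : p ∈ KB s.D.N) (h : (s.itB x B y).Star (Function.update p 3 0)) :
    FlatAt B (b ⊔ m.ii (Sum.inr (y.1, true))) p := fun i j hi hj => by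
  have h1 := InC.add (InI.mono le_sup_left (hs p hp i j hi hj))
    (InI.mono (le_sup_right (a := b)) (JB_star m hx h i j))
  rwa [Pi.sub_apply, Pi.sub_apply, Pi.sub_apply, sub_add_cancel] at h1

theorem flat_col (i : Kl) {a : ℕ} (ha : a ≤ 6 * s.D.N) :
    FlatAt B (b ⊔ m.ii (Sum.inr (i, true))) (col s.D.N i a) := by
  refine flat_star (y := (i, ⟨a / 2, by change a / 2 < 3 * _ + 1; omega⟩)) m hx hs
    (col_mem s.D.hN (by omega) (by omega)) ?_
  rw [Function.update_eq_self_iff.2 (col_three _).symm, star_col, abs_le]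
  exact ⟨rfl, by simp only; omega⟩

variable (hB : Good1 (KB s.D.N) B) (hB' : In1 (KB s.D.N) m.a B)
include hB hB'

theorem xi_col {i : Kl} {a : ℕ} (h : (s.itB x B y).Star (col s.D.N i a)) :
    InI (m.a * b) ((s.itB x B y).xi B (col s.D.N i a) -
      Ad (gg s.D.N i B a) (cst (x (i, true) none))) := by
  obtain ⟨rfl, h1⟩ := star_col.1 h
  have h2 := gg_even (i := y.1) s.D.hN m.nil hB hB'
    (fun j hj => by simpa using flat_col m hx hs y.1 (a := 2 * j + 1) (by omega)) (y_le y)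
  have h3 : Function.update (s.itB x B y).σ (s.itB x B y).k (col s.D.N y.1 a (s.itB x B y).k) =
      col s.D.N y.1 a := by
    rw [sig_eq]
    funext j
    by_cases hj : j = kap y.1
    · rw [hj]; exact Function.update_self _ _ _
    · exact (Function.update_of_ne hj _ _).trans (col_ne' _ _ hj)
  rw [Item.xi, h3, step_self, mul_one, Y_eq, It.at0_Ad, at0_cst, It.cst_Ad,
    hh_const s.D.hN m.nil hB hB' (y_le y), ← Ad_mul, sig_eq]
  refine InI.mono (Ideal.mul_mono_left (m.le _))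
    (It.Ad_cg (m.sq _) ((inI_cst _ _).2 (x_mem m hx y.1)) (It.cg_iff.2 ?_))
  rw [← mul_assoc, map_mul, h2, ← map_mul, ← gg_step B (a := a) (c := 2 * y.2) (by simpa using h1)]
  simp

theorem sum_xi (i : Kl) (a : ℕ) (c : Kl × Fin (s.n + 1) → RR O)
    (hc : ∀ y, c y ≠ 0 → (s.itB x B y).Star (col s.D.N i a)) :
    InI (m.a * b) (∑ y, c y • (s.itB x B y).xi B (col s.D.N i a) -
      (∑ y, c y) • Ad (gg s.D.N i B a) (cst (x (i, true) none))) := by
  rw [Finset.sum_smul, ← Finset.sum_sub_distrib]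
  refine InC.sum _ _ fun y _ => ?_
  rw [← smul_sub]
  by_cases h : c y = 0
  · rw [h, zero_smul]; exact InC.zero
  · exact InC.smul (xi_col m hx hs hB hB' (hc y h)) _

/-- the current on the column -/
theorem JB_col {p : Pt} {i : Kl} {a : ℕ} (ha : a ≤ 6 * s.D.N)
    (hp : Function.update p 3 0 = col s.D.N i a) (k l : Fin 4) :
    InI (m.a * b) (s.JB x B p k l -
      eps4 k l (kap i) 3 • Ad (gg s.D.N i B a) (cst (x (i, true) none))) := by
  by_cases h1 : k = 3 ∨ l = 3
  · have h2 : ∀ k l j : Fin 4, k = 3 ∨ l = 3 → eps4 k l j 3 = 0 := by decide +kernel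
    rw [Setup.JB, if_pos h1, h2 k l _ h1, zero_smul, sub_zero]
    exact InC.zero
  · have h2 := InC.zsmul (sum_xi m hx hs hB hB' i a (fun y =>
      if (s.itB x B y).Star (col s.D.N i a) then hat (col s.D.N i a) (s.itB x B y).σ (kap i) else 0)
      fun y h => by by_contra h3; exact h (if_neg h3)) (eps4 k l (kap i) 3)
    rw [sum_hat i ha, one_smul, smul_sub, Finset.smul_sum] at h2
    rw [JB_apply (not_or.1 h1).1 (not_or.1 h1).2, hp, inI_iff]
    convert h2 using 3 with y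
    unfold Item.J
    split_ifs with h3
    · obtain rfl := (star_col.1 h3).1
      change (1 * eps4 k l (kap y.1) 3) • (hat _ _ (kap y.1) * hat _ _ 3 : RR O) • _ = _
      rw [one_mul, It.hat_eq (m := 3) (by rw [sig_eq, col_three, col_three]), mul_one]
    · rw [zero_smul, smul_zero]

end JBc

end Vale.Agent.P215Z.K
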