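import Vale.Agent.P260Z.Ob.Reg.Walls
import Vale.Agent.P215Z.Frm.Items

/-!
# P260, obstruction: the columns which carry the sources of the second chart
-/

noncomputable section
set_option linter.unusedSectionVars false
variable [Vale.Agent.P215Z.K.Geom]
namespace Vale.Agent.P215Z.K.JBc
open MvPolynomial Classical

/-- the cells of the column, in standard coordinates -/
def sc0 (i : Kl) (a : ℤ) : Pt := fun j => if j = kap i then a else if j = 3 then 0 else 1

/-- the cells of the column -/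
def col (N : ℕ) (i : Kl) (a : ℤ) : Pt := dm N (i, true) (sc0 i a)

/-- the primal line of the column -/
def vt (N : ℕ) (i : Kl) (a : ℤ) : Pt := dm N (i, true) (a • ee (kap i))

theorem dm_true (N : ℕ) (i : Kl) (p : Pt) (j : Fin 4) :
    dm N (i, true) p j = p j + 2 * N * org (i, true) j := rfl

theorem kap_ne (i : Kl) : kap i ≠ 3 := Gx.kap_ne3 i

theorem org_three (i : Kl) : org (i, true) 3 = 0 := Gx.org_three _

variable {N : ℕ} {i : Kl}

theorem col_kap (a : ℤ) : col N i a (kap i) = a + 2 * N * org (i, true) (kap i) := by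
  rw [col, dm_true, sc0, if_pos rfl]

theorem col_three (a : ℤ) : col N i a 3 = 0 := by
  rw [col, dm_true, sc0, if_neg (kap_ne i).symm, if_pos rfl, org_three, mul_zero, add_zero]

theorem col_ne (a : ℤ) {j : Fin 4} (h : j ≠ kap i) (h' : j ≠ 3) :
    col N i a j = 1 + 2 * N * org (i, true) j := by
  rw [col, dm_true, sc0, if_neg h, if_neg h']

theorem col_ne' (a a' : ℤ) {j : Fin 4} (h : j ≠ kap i) : col N i a j = col N i a' j := by
  rw [col, col, dm_true, dm_true, sc0, sc0, if_neg h, if_neg h]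

theorem vt_kap (a : ℤ) : vt N i a (kap i) = a + 2 * N * org (i, true) (kap i) := by
  simp [vt, dm_true, ee]

theorem vt_ne (a : ℤ) {j : Fin 4} (h : j ≠ kap i) : vt N i a j = 2 * N * org (i, true) j := by
  simp [vt, dm_true, ee, h]

theorem eq_col {p : Pt} (h1 : ∀ j, j ≠ kap i → j ≠ 3 → p j = 1 + 2 * N * org (i, true) j)
    (h3 : p 3 = 0) : p = col N i (p (kap i) - 2 * N * org (i, true) (kap i)) := by
  funext j
  by_cases h : j = kap i
  · rw [h, col_kap, sub_add_cancel]
  · by_cases h' : j = 3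
    · rw [h', col_three, h3]
    · rw [col_ne _ h h', h1 j h h']

theorem col_inj {a a' : ℤ} {i' : Kl} (hN : 0 < N) (h : col N i a 2 = col N i' a' 2) :
    i = i' := by
  have h2 : ∀ i : Kl, (2 : Fin 4) ≠ kap i := fun i => (Gx.kap_ne2 i).symm
  rw [col_ne _ (h2 _) (by decide), col_ne _ (h2 _) (by decide)] at h
  exact Gx.org_inj (mul_left_cancel₀ (by omega : (2 * N : ℤ) ≠ 0) (add_left_cancel h))

theorem inBox_iff (a b q : Pt) : InBox N a b q ↔ (N * a 0 ≤ q 0 ∧ q 0 < N * b 0) ∧
    (N * a 1 ≤ q 1 ∧ q 1 < N * b 1) ∧ (N * a 2 ≤ q 2 ∧ q 2 < N * b 2) ∧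
      N * a 3 ≤ q 3 ∧ q 3 < N * b 3 :=
  ⟨fun h => ⟨h 0, h 1, h 2, h 3⟩, fun h j => by
    fin_cases j
    exacts [h.1, h.2.1, h.2.2.1, h.2.2.2]⟩

theorem cube_Q {p q : Pt} (hq : q ∈ Uc N) (hpq : ∀ j, |p j - cell q j| ≤ 1)
    (h1 : ∀ j, j ≠ kap i → j ≠ 3 → p j = 1 + 2 * N * org (i, true) j) {a : ℤ}
    (h2 : p (kap i) = a + 2 * N * org (i, true) (kap i)) (h3 : -1 ≤ a) (h4 : a ≤ 6 * N + 1) :
    q ∈ Qc N (i, true) ∧ 0 ≤ a ∧ a ≤ 6 * N := by
  have e := fun j => abs_le.1 (hpq j)
  have e1 := e (kap i)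
  simp only [cell] at e e1
  rw [mul_assoc] at h2
  have b3 := hq.1 3
  rw [Gx.hi_three, Pi.zero_apply] at b3
  have hQ : q ∈ Qc N (i, true) := by
    refine Gx.fib_in (l := (i, true)) hq (fun j a b => ?_) (by dsimp only; omega)
      (by dsimp only; omega)
    have e2 := e j
    have e3 := h1 j a b
    rw [mul_assoc] at e3
    omega
  have h5 := Gx.mem_Qc.1 hQ (kap i)
  exact ⟨hQ, by omega, by omega⟩

theorem wv_col_even (j : ℤ) : wv (col N i (2 * j)) = vt N i (2 * j) := by
  funext m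
  by_cases h : m = kap i
  · rw [h, wv, vt_kap, col_kap, if_neg]
    rw [Int.odd_iff, mul_assoc]; omega
  · rw [vt_ne _ h, wv]
    by_cases h' : m = 3
    · rw [h', col_three, org_three]; simp
    · rw [col_ne _ h h', if_pos, add_sub_cancel_left]
      rw [Int.odd_iff, mul_assoc]; omega

theorem odd_col (j : ℤ) : Odd (col N i (2 * j + 1) (kap i)) := by
  rw [col_kap, Int.odd_iff, mul_assoc]; omega

theorem face_col (a : ℤ) (c : Bool) :
    face (col N i a) (kap i) c = col N i (if c then a + 1 else a - 1) := by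
  funext m
  by_cases h : m = kap i
  · rw [h, face_self, col_kap, col_kap]; split_ifs <;> ring
  · rw [face_ne h, col_ne' _ _ h]

theorem face_vt (a : ℤ) (c : Bool) :
    face (vt N i a) (kap i) c = vt N i (if c then a + 1 else a - 1) := by
  funext m
  by_cases h : m = kap i
  · rw [h, face_self, vt_kap, vt_kap]; split_ifs <;> ring
  · rw [face_ne h, vt_ne _ h, vt_ne _ h]

theorem isFace_col {a j : ℤ} (h : |a - (2 * j + 1)| ≤ 1) :
    IsFace (col N i a) (col N i (2 * j + 1)) := by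
  intro m
  by_cases h1 : m = kap i
  · rw [h1]
    by_cases h2 : a = 2 * j + 1
    · exact Or.inl (by rw [h2])
    · refine Or.inr ⟨odd_col j, ?_⟩
      rw [col_kap, col_kap, abs_eq zero_le_one]
      rw [abs_le] at h
      omega
  · exact Or.inl (col_ne' _ _ h1)

theorem isFace_vt (a : ℤ) : IsFace (vt N i a) (col N i a) := by
  intro m
  by_cases h : m = kap i
  · exact Or.inl (by rw [h, vt_kap, col_kap])
  · rw [vt_ne _ h]
    by_cases h' : m = 3
    · exact Or.inl (by rw [h', col_three, org_three, mul_zero])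
    · rw [col_ne _ h h']
      exact Or.inr ⟨by rw [Int.odd_iff, mul_assoc]; omega, by simp⟩

theorem adj_col (a : ℤ) : Adj (col N i a) (col N i (a + 1)) := by
  refine Or.inr ⟨kap i, Or.inl (funext fun m => ?_)⟩
  by_cases h : m = kap i
  · rw [h, Pi.sub_apply, col_kap, col_kap]; simp [ee]
  · rw [Pi.sub_apply, col_ne' a (a + 1) h]; simp [ee, h]

theorem col_mem (hN : 0 < N) {a : ℤ} (h0 : 0 ≤ a) (h1 : a ≤ 6 * N) : col N i a ∈ KB N := by
  obtain ⟨j, hj0, hj1, hj⟩ : ∃ j : ℤ, 0 ≤ j ∧ j < 3 * N ∧ |a - (2 * j + 1)| ≤ 1 := by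
    by_cases h : a = 6 * N
    · exact ⟨3 * N - 1, by omega, by omega, by rw [abs_le]; omega⟩
    · exact ⟨a / 2, by omega, by omega, by rw [abs_le]; omega⟩
  have h3 : Is3 (3 * N) (sc0 i (2 * j + 1)) 3 := by
    refine ⟨Or.inl (by rw [sc0, if_neg (kap_ne i).symm, if_pos rfl]), fun m hm => ?_⟩
    rw [sc0, if_neg hm]
    split_ifs
    · exact ⟨odd_two_mul_add_one j, by omega, by push_cast; omega⟩
    · exact ⟨odd_one, by omega, by push_cast; omega⟩
  have h4 := (dm_V1 hN (i, true) h3 (fun h => ((is3_V0 h3).1 h).2 rfl) (It.isFace_refl _)).1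
  exact (cx_Kof _).isFace h4 (isFace_col hj)

theorem upTo_zero (p : Pt) : upTo p 0 = wv p := funext fun _ => if_neg (Nat.not_lt_zero _)
theorem upTo_four (p : Pt) : upTo p 4 = p := funext fun j => if_pos j.2

variable {O : Type} [CommRing O] [Algebra ℚ O]

/-- transport along the column -/
def gg (N : ℕ) (i : Kl) (B : F1 O) (a : ℕ) : (MM O)ˣ :=
  Up B (col N i 1) * step B (col N i 1) (col N i 0) * holN (step B) (fun t => col N i t) a

/-- transport along the primal line -/
def hh (N : ℕ) (i : Kl) (B : F1 O) (j : ℕ) : (MM O)ˣ :=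
  holN (pe B) (fun t => vt N i (2 * t : ℤ)) j

omit [Algebra ℚ O] in
theorem gg_succ (B : F1 O) (a : ℕ) :
    gg N i B (a + 1) = gg N i B a * step B (col N i a) (col N i (a + 1)) := by
  rw [gg, gg, holN, mul_assoc _ (holN _ _ _)]
  push_cast
  rfl

theorem gg_one (B : F1 O) : gg N i B 1 = Up B (col N i 1) := by
  rw [gg_succ, gg, holN, mul_one, Nat.cast_zero, zero_add, step_symm B (col N i 1),
    mul_inv_cancel_right]

theorem gg_step (B : F1 O) {a c : ℕ} (h : |(a : ℤ) - c| ≤ 1) :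
    gg N i B c * step B (col N i c) (col N i a) = gg N i B a := by
  rw [abs_le] at h
  obtain rfl | rfl | rfl : a = c ∨ a = c + 1 ∨ c = a + 1 := by omega
  · rw [step_self, mul_one]
  · rw [gg_succ, Nat.cast_add_one]
  · rw [gg_succ, Nat.cast_add_one, step_symm B (col N i a), mul_inv_cancel_right]

section flat
variable (hN : 0 < N) {a d : Ideal O} (ha : IsNilpotent a) {B : F1 O} (hB : Good1 (KB N) B)
  (hB' : In1 (KB N) a B)
include hN ha hB hB'

theorem hh_const {j : ℕ} (hj : j ≤ 3 * N) : It.cstU (at0U (hh N i B j)) = hh N i B j := by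
  induction j with
  | zero => rw [hh, holN, at0U, map_one, It.cstU, map_one]
  | succ j ih =>
    have h1 : PAdj (KB N) (vt N i (2 * j)) (vt N i (2 * (j + 1 : ℕ))) := by
      have h2 := Flt.pAdj_face (K := KB N) (m := vt N i (2 * j + 1)) (k := kap i) false
        ((cx_Kof _).isFace (col_mem hN (by omega) (by omega)) (isFace_vt _))
        (by rw [vt_kap, Int.odd_iff, mul_assoc]; omega)
        fun m hm => by rw [vt_ne _ hm, mul_assoc]; exact even_two_mul _
      rw [face_vt, face_vt] at h2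
      simpa [mul_add, add_assoc, one_add_one_eq_two] using h2
    have h3 := pe_const ha (cx_Kof _) hB hB' h1
    have h4 : It.cstU (at0U (pe B (vt N i (2 * j)) (vt N i (2 * (j + 1 : ℕ))))) =
      pe B (vt N i (2 * j)) (vt N i (2 * (j + 1 : ℕ))) := Units.ext h3.symm
    have h5 := ih (by omega)
    rw [hh] at h5
    rw [hh, holN, at0U, map_mul, It.cstU, map_mul]
    exact congrArg₂ (· * ·) h5 h4

theorem gg_even (hf : ∀ j : ℕ, j < 3 * N → FlatAt B d (col N i (2 * j + 1))) {j : ℕ}
    (hj : j ≤ 3 * N) : QuotientGroup.mk' (UG d) (hh N i B j * Up B (col N i (2 * j))) =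
      QuotientGroup.mk' (UG d) (gg N i B (2 * j)) := by
  have key : ∀ j : ℕ, j < 3 * N → ∃ g : Pt → (MM O)ˣ ⧸ UG d,
      g (wv (col N i (2 * j + 1))) = 1 ∧
      g (col N i (2 * j + 1)) = QuotientGroup.mk' (UG d) (Up B (col N i (2 * j + 1))) ∧
      (∀ τ τ', IsFace τ (col N i (2 * j + 1)) → IsFace τ' (col N i (2 * j + 1)) → Adj τ τ' →
        g τ * QuotientGroup.mk' (UG d) (step B τ τ') = g τ') ∧
      (∀ τ, IsFace τ (col N i (2 * j + 1)) →
        g (wv τ) * QuotientGroup.mk' (UG d) (Up B τ) = g τ) ∧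
      g (vt N i (2 * j)) * QuotientGroup.mk' (UG d) (pe B (vt N i (2 * j)) (vt N i (2 * j + 2))) =
        g (vt N i (2 * j + 2)) := by
    intro j hj
    obtain ⟨g, h1, h2, h3⟩ := cell_flat ha (cx_Kof _) hB hB'
      (col_mem (i := i) hN (a := 2 * j + 1) (by omega) (by omega)) (hf j hj)
    refine ⟨fun τ => QuotientGroup.mk' (UG d) (g τ), by simp only [h1, map_one], by simp only [h2],
      fun τ τ' e1 e2 e3 => ?_, fun τ e => ?_, ?_⟩
    · rw [← map_mul]; exact It.cg_iff.1 (h3 τ τ' e1 e2 e3)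
    · have h4 := Flt.holN_frame h3 (upTo τ) 4
        (fun t _ => It.isFace_trans (isFace_upTo τ t) e) fun t _ => adj_upTo τ t
      rw [upTo_zero, upTo_four] at h4
      rw [← map_mul]; exact It.cg_iff.1 h4
    · have h4 := Flt.pe_frame h3 (isFace_vt (N := N) (i := i) (2 * j + 1)) (k := kap i)
        (by rw [vt_kap, Int.odd_iff, mul_assoc]; omega)
      rw [face_vt, face_vt] at h4
      rw [← map_mul]
      refine It.cg_iff.1 ?_
      simpa [add_assoc, one_add_one_eq_two] using h4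
  have e0 : ∀ j : ℕ, wv (col N i (2 * j + 1)) = vt N i (2 * j) := fun j => by
    rw [← wv_col_even]
    funext m
    by_cases h : m = kap i
    · rw [h, wv, wv, if_pos (odd_col _), if_neg, col_kap, col_kap]
      · ring
      · rw [col_kap, Int.odd_iff, mul_assoc]; omega
    · rw [wv, wv, col_ne' _ (2 * j) h]
  induction j with
  | zero =>
    obtain ⟨g, h1, h2, h3, h4, -⟩ := key 0 (by omega)
    have f0 := isFace_col (N := N) (i := i) (a := 0) (j := (0 : ℕ)) (by simp)
    have h5 := h4 _ f0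
    have h6 := h3 _ _ f0 (It.isFace_refl _) (by simpa using adj_col 0)
    have h7 := wv_col_even (N := N) (i := i) 0
    rw [e0] at h1
    simp only [Nat.cast_zero, mul_zero, zero_add] at *
    rw [h7, h1, one_mul] at h5
    rw [hh, holN, one_mul, gg, holN, mul_one, map_mul, ← h2, ← h6, h5, step_symm B (col N i 0),
      map_inv, mul_inv_cancel_right]
  | succ j ih =>
    obtain ⟨g, h1, -, h3, h4, h5⟩ := key j (by omega)
    have f0 := isFace_col (N := N) (i := i) (a := 2 * j) (j := j) (by simp)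
    have f2 := isFace_col (N := N) (i := i) (a := 2 * j + 1 + 1) (j := j) (by simp)
    have h6 := h3 _ _ f0 (It.isFace_refl _) (adj_col _)
    have h7 := h3 _ _ (It.isFace_refl _) f2 (adj_col _)
    have h8 := h4 _ f0
    have h9 := h4 _ f2
    have e1 : (2 * j + 1 + 1 : ℤ) = 2 * (j + 1) := by ring
    have e2 : (2 * j + 2 : ℤ) = 2 * (j + 1) := by ring
    rw [e0] at h1
    rw [wv_col_even, h1, one_mul] at h8
    rw [h1, one_mul, e2] at h5
    rw [e1] at h7
    rw [e1, wv_col_even] at h9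
    have h10 := ih (by omega)
    rw [hh, map_mul] at h10
    rw [hh, holN, show 2 * (j + 1) = 2 * j + 1 + 1 from rfl, gg_succ, gg_succ]
    push_cast
    rw [e1]
    simp only [map_mul]
    rw [← h10, h5, h8, mul_assoc, h9, mul_assoc, mul_assoc, ← mul_assoc (g _), h6, h7]

end flat

end Vale.Agent.P215Z.K.JBc
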